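import Mathlib
import Vale.Agent.P150.Defs
import Vale.Agent.P150.H704.CritFull

open Filter Topology

namespace Vale.Agent.Results.P150.CriticalExponent

open Vale.Agent.P150

/-- SK heat-bath dynamics in zero field at the critical point `β = 1`: there is a constant `C > 0`
so that, w.h.p. over the disorder, with `r = C (log n) ^ 4 n ^ (-2/3)`: the spectral gap is at most
`r`; the mixing time is at least `(log 2) n ^ (2/3) / (C (log n) ^ 4)`; at every time `t ≥ 0` the
total variation distance from some start is at least `exp (- r t) / 2`; and typical starts are slow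
too: for all `t ≥ 0` and `η > 0` the starts with total variation distance less than `1 / 2 - η` at
time `t` have Gibbs mass at most `r t / η + exp (- (log n) ^ 3)`. -/
theorem result : ∃ C : ℝ, 0 < C ∧ WHP (fun n => {g |
      gap (skJ 1 g) (fun _ => 0) ≤ C * Real.log n ^ 4 * (n : ℝ) ^ (-(2 / 3 : ℝ)) ∧
      Real.log 2 / (C * Real.log n ^ 4) * (n : ℝ) ^ (2 / 3 : ℝ) ≤
        tmix (skJ 1 g) (fun _ => 0) ∧
      (∀ t, 0 ≤ t → ∃ x,
        Real.exp (-(C * Real.log n ^ 4 * (n : ℝ) ^ (-(2 / 3 : ℝ)) * t)) / 2 ≤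
          tvDist (skJ 1 g) (fun _ => 0) t x) ∧
      ∀ t η : ℝ, 0 ≤ t → 0 < η → ex (skJ 1 g) (fun _ => 0)
          (fun x => if tvDist (skJ 1 g) (fun _ => 0) t x < 1 / 2 - η then 1 else 0)
        ≤ C * Real.log n ^ 4 * (n : ℝ) ^ (-(2 / 3 : ℝ)) * t / η +
          Real.exp (-(Real.log n ^ 3))}) :=
  H704.crit_full

end Vale.Agent.Results.P150.CriticalExponent
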