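import Mathlib
import Vale.Agent.P150.Defs
import Vale.Agent.P150.H704.Near

open Filter Topology

namespace Vale.Agent.Results.P150.NearCriticalUpper

open Vale.Agent.P150

/-- SK heat-bath dynamics in zero field, upper bounds on the mixing time and lower bounds on the
spectral gap at and above the critical point, w.h.p. over the disorder, for every `ε > 0`.
(1) Simultaneously for all `0 ≤ β ≤ 1`, the critical point included: `gap ≥ exp (- ε n)` and
`t_mix ≤ exp (ε n)`. (2) Simultaneously for all `β ≥ 1`: the same with the rate `ε` replaced by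
`(2 √(log 2) + ε) (β - 1) + ε`. (3) Every fixed `β ≥ 1`: the same with the rate
`2 √(log 2) (β - 1) + ε`. -/
theorem result :
    (∀ ε : ℝ, 0 < ε → WHP (fun n => {g | ∀ β : ℝ, 0 ≤ β → β ≤ 1 →
      Real.exp (-(ε * n)) ≤ gap (skJ β g) (fun _ => 0) ∧
      tmix (skJ β g) (fun _ => 0) ≤ Real.exp (ε * n)})) ∧
    (∀ ε : ℝ, 0 < ε → WHP (fun n => {g | ∀ β : ℝ, 1 ≤ β →
      Real.exp (-(((2 * √(Real.log 2) + ε) * (β - 1) + ε) * n)) ≤
        gap (skJ β g) (fun _ => 0) ∧
      tmix (skJ β g) (fun _ => 0) ≤
        Real.exp (((2 * √(Real.log 2) + ε) * (β - 1) + ε) * n)})) ∧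
    (∀ β : ℝ, 1 ≤ β → ∀ ε : ℝ, 0 < ε → WHP (fun n => {g |
      Real.exp (-((2 * √(Real.log 2) * (β - 1) + ε) * n)) ≤ gap (skJ β g) (fun _ => 0) ∧
      tmix (skJ β g) (fun _ => 0) ≤ Real.exp ((2 * √(Real.log 2) * (β - 1) + ε) * n)})) := by
  refine ⟨fun ε hε => ?_, fun ε hε => ?_, fun β hβ ε hε => ?_⟩
  · refine MainThm.whp_mono (H704.near hε) (Eventually.of_forall fun n => ?_)
    intro g hg β h0 h1
    have h := hg β h0
    rw [max_eq_right (by linarith), mul_zero, zero_add] at h
    exact h
  · refine MainThm.whp_mono (H704.near hε) (Eventually.of_forall fun n => ?_)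
    intro g hg β h1
    have h := hg β (by linarith)
    rw [max_eq_left (by linarith)] at h
    exact h
  · have hd : 0 < β := by linarith
    refine MainThm.whp_mono (H704.near (ε := ε / β) (by positivity))
      (Eventually.of_forall fun n => ?_)
    intro g hg
    have h := hg β hd.le
    rw [max_eq_left (by linarith)] at h
    have h2 : ((2 * √(Real.log 2) + ε / β) * (β - 1) + ε / β) * n
        = (2 * √(Real.log 2) * (β - 1) + ε) * n := by
      congr 1
      field_simp
      ring
    rw [h2] at h
    exact h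

end Vale.Agent.Results.P150.NearCriticalUpper
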