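import Mathlib
import Vale.Agent.P150.Defs
import Vale.Agent.P150.H827.Inst

open Filter Topology

namespace Vale.Agent.Results.P150.SlowMixing

open Vale.Agent.P150

/-- Zero-field SK heat-bath dynamics at EVERY fixed low temperature `β > 1`, for every exponent
`0 ≤ a < 2 / 17`, with high probability over the disorder: the spectral gap is at most
`exp (- n ^ a)`, the mixing time is at least `(log 2) exp (n ^ a)`, at every time some start has
total variation at least `exp (- exp (- n ^ a) t) / 2`; the slow mixing is not a worst-start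
effect: at each time `t ≤ exp (n ^ a)` the starts `x` with total variation less than
`1 / 2 - exp (- n ^ a)` have total Gibbs mass at most `exp (- n ^ a)`; and, for all `c > 0` and `e`
with `a + c < 2 / 17` and `5 (a + c) < 2 e`, all configurations `y` outside a set of Gibbs mass at
most `n ^ (-c)` are such that the configurations `x` with overlap at most `n ^ (-e)` in modulus
with `y` have Gibbs mass at most `exp (- n ^ a)`. -/
theorem result (β : ℝ) (hβ : 1 < β) (a c e : ℝ) (ha : 0 ≤ a) (hc : 0 < c)
    (hac : a + c < 2 / 17) (he : 5 * (a + c) < 2 * e) :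
    WHP (fun n => {g |
      gap (skJ β g) (fun _ => 0) ≤ Real.exp (-((n : ℝ) ^ a)) ∧
      Real.log 2 * Real.exp ((n : ℝ) ^ a) ≤ tmix (skJ β g) (fun _ => 0) ∧
      (∀ t, 0 ≤ t → ∃ x, Real.exp (-(Real.exp (-((n : ℝ) ^ a)) * t)) / 2 ≤
        tvDist (skJ β g) (fun _ => 0) t x) ∧
      (∀ t, 0 ≤ t → t ≤ Real.exp ((n : ℝ) ^ a) → ex (skJ β g) (fun _ => 0)
        (fun x => if tvDist (skJ β g) (fun _ => 0) t x < 1 / 2 - Real.exp (-((n : ℝ) ^ a))
          then 1 else 0) ≤ Real.exp (-((n : ℝ) ^ a))) ∧
      ex (skJ β g) (fun _ => 0) (fun y => if Real.exp (-((n : ℝ) ^ a)) <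
        ex (skJ β g) (fun _ => 0)
          (fun x => if |(∑ i, sp (x i) * sp (y i)) / n| ≤ (n : ℝ) ^ (-e) then 1 else 0)
          then 1 else 0) ≤ (n : ℝ) ^ (-c)}) :=
  H827.slow (by linarith) (by norm_num) (H827.mom17 hβ) ha hc hac he

end Vale.Agent.Results.P150.SlowMixing
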